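import Vale.Agent.P299.H800.KOD.Defs
import Vale.Agent.P272.KOD.Tools

/-!
# P272, stage 4: tools for sections of powers of the canonical bundle

* `locSec` : the smooth section given by a compactly supported function in one chart;
* algebra of `PSec` and `SSec`;
* chart independence of the pointwise norm.
-/

open scoped Manifold ContDiff ComplexOrder Topology
open MeasureTheory

set_option linter.all false

noncomputable section

namespace Vale.Agent.P299.H800.KOD

open Vale.Agent.P272.K Vale.Agent.P272.KOD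

section basic
variable {n m m' : ℕ} {X : Type*} [TopologicalSpace X] [ChartedSpace (Cm n) X] {L : ALB n X}

/-! ### smooth sections -/

namespace SSec

instance : Zero (SSec L m) :=
  ⟨⟨fun _ _ => 0, fun _ _ _ => contDiffAt_const, fun _ _ _ _ _ => by simp⟩⟩

instance : Add (SSec L m) :=
  ⟨fun s t => ⟨fun e z => s.coeff e z + t.coeff e z,
    fun e x h => (s.smooth e x h).add (t.smooth e x h),
    fun e e' x h h' => by
      show s.coeff e (e x) + t.coeff e (e x) = (s.coeff e' (e' x) + t.coeff e' (e' x)) * _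
      rw [s.change e e' x h h', t.change e e' x h h', add_mul]⟩⟩

instance : Sub (SSec L m) :=
  ⟨fun s t => ⟨fun e z => s.coeff e z - t.coeff e z,
    fun e x h => (s.smooth e x h).sub (t.smooth e x h),
    fun e e' x h h' => by
      show s.coeff e (e x) - t.coeff e (e x) = (s.coeff e' (e' x) - t.coeff e' (e' x)) * _
      rw [s.change e e' x h h', t.change e e' x h h', sub_mul]⟩⟩

instance : SMul ℂ (SSec L m) :=
  ⟨fun c s => ⟨fun e z => c * s.coeff e z,
    fun e x h => contDiffAt_const.mul (s.smooth e x h),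
    fun e e' x h h' => by
      show c * s.coeff e (e x) = c * s.coeff e' (e' x) * _
      rw [s.change e e' x h h', mul_assoc]⟩⟩

@[simp] lemma zero_coeff (e : Chart n X) (z : Cm n) : (0 : SSec L m).coeff e z = 0 := rfl
@[simp] lemma add_coeff (s t : SSec L m) (e : Chart n X) (z : Cm n) :
    (s + t).coeff e z = s.coeff e z + t.coeff e z := rfl
@[simp] lemma sub_coeff (s t : SSec L m) (e : Chart n X) (z : Cm n) :
    (s - t).coeff e z = s.coeff e z - t.coeff e z := rfl
@[simp] lemma smul_coeff (c : ℂ) (s : SSec L m) (e : Chart n X) (z : Cm n) :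
    (c • s).coeff e z = c * s.coeff e z := rfl

/-- finite sums of smooth sections -/
def sum {ι : Type*} (S : Finset ι) (s : ι → SSec L m) : SSec L m :=
  ⟨fun e z => ∑ i ∈ S, (s i).coeff e z,
    fun e x h => ContDiffAt.sum fun i _ => (s i).smooth e x h,
    fun e e' x h h' => by
      show ∑ i ∈ S, (s i).coeff e (e x) = (∑ i ∈ S, (s i).coeff e' (e' x)) * _
      rw [Finset.sum_mul]
      exact Finset.sum_congr rfl fun i _ => (s i).change e e' x h h'⟩

@[simp] lemma sum_coeff {ι : Type*} (S : Finset ι) (s : ι → SSec L m) (e : Chart n X)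
    (z : Cm n) : (sum S s).coeff e z = ∑ i ∈ S, (s i).coeff e z := rfl

/-- multiplication by a smooth function -/
def mulFn (χ : X → ℝ) (hχ : ∀ (e : Chart n X) (x : X), At e x →
      ContDiffAt ℝ ∞ (fun z => χ (e.symm z)) (e x)) (s : SSec L m) : SSec L m :=
  ⟨fun e z => (χ (e.symm z) : ℂ) * s.coeff e z,
    fun e x h => by
      have h1 : ContDiffAt ℝ ∞ (fun z => (χ (e.symm z) : ℂ)) (e x) :=
        Complex.ofRealCLM.contDiff.contDiffAt.comp (e x) (hχ e x h)
      exact h1.mul (s.smooth e x h),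
    fun e e' x h h' => by
      show (χ (e.symm (e x)) : ℂ) * s.coeff e (e x) = (χ (e'.symm (e' x)) : ℂ) * s.coeff e' (e' x) * _
      rw [h.left_inv, h'.left_inv, s.change e e' x h h', mul_assoc]⟩

@[simp] lemma mulFn_coeff (χ : X → ℝ) (hχ) (s : SSec L m) (e : Chart n X) (z : Cm n) :
    (s.mulFn χ hχ).coeff e z = (χ (e.symm z) : ℂ) * s.coeff e z := rfl

end SSec

/-! ### holomorphic sections -/

namespace PSec

/-- a holomorphic section is smooth -/
def toSSec (s : PSec L m) : SSec L m :=
  ⟨s.coeff, fun e x h => ((s.holo e x h).contDiffAt (n := ∞)).restrict_scalars ℝ, s.change⟩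

@[simp] lemma toSSec_coeff (s : PSec L m) : s.toSSec.coeff = s.coeff := rfl

instance : Zero (PSec L m) :=
  ⟨⟨fun _ _ => 0, fun _ _ _ => analyticAt_const, fun _ _ _ _ _ => by simp⟩⟩

instance : Add (PSec L m) :=
  ⟨fun s t => ⟨fun e z => s.coeff e z + t.coeff e z,
    fun e x h => (s.holo e x h).add (t.holo e x h),
    fun e e' x h h' => by
      show s.coeff e (e x) + t.coeff e (e x) = (s.coeff e' (e' x) + t.coeff e' (e' x)) * _
      rw [s.change e e' x h h', t.change e e' x h h', add_mul]⟩⟩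

instance : SMul ℂ (PSec L m) :=
  ⟨fun c s => ⟨fun e z => c * s.coeff e z,
    fun e x h => analyticAt_const.mul (s.holo e x h),
    fun e e' x h h' => by
      show c * s.coeff e (e x) = c * s.coeff e' (e' x) * _
      rw [s.change e e' x h h', mul_assoc]⟩⟩

@[simp] lemma zero_coeff (e : Chart n X) (z : Cm n) : (0 : PSec L m).coeff e z = 0 := rfl
@[simp] lemma add_coeff (s t : PSec L m) (e : Chart n X) (z : Cm n) :
    (s + t).coeff e z = s.coeff e z + t.coeff e z := rfl
@[simp] lemma smul_coeff (c : ℂ) (s : PSec L m) (e : Chart n X) (z : Cm n) :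
    (c • s).coeff e z = c * s.coeff e z := rfl

/-- the product of two sections -/
def mul (s : PSec L m) (t : PSec L m') : PSec L (m + m') :=
  ⟨fun e z => s.coeff e z * t.coeff e z,
    fun e x h => (s.holo e x h).mul (t.holo e x h),
    fun e e' x h h' => by
      show s.coeff e (e x) * t.coeff e (e x) = s.coeff e' (e' x) * t.coeff e' (e' x) * _
      rw [s.change e e' x h h', t.change e e' x h h', pow_add]
      ring⟩

@[simp] lemma mul_coeff (s : PSec L m) (t : PSec L m') (e : Chart n X) (z : Cm n) :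
    (s.mul t).coeff e z = s.coeff e z * t.coeff e z := rfl

/-- change of the exponent along an equality -/
def cast (h : m = m') (s : PSec L m) : PSec L m' :=
  ⟨s.coeff, s.holo, fun e e' x hx hx' => by rw [← h]; exact s.change e e' x hx hx'⟩

@[simp] lemma cast_coeff (h : m = m') (s : PSec L m) : (s.cast h).coeff = s.coeff := rfl

/-- powers of a section -/
def pow (s : PSec L m) (k : ℕ) : PSec L (m * k) :=
  ⟨fun e z => s.coeff e z ^ k,
    fun e x h => (s.holo e x h).pow k,
    fun e e' x h h' => by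
      show s.coeff e (e x) ^ k = s.coeff e' (e' x) ^ k * _
      rw [s.change e e' x h h', mul_pow, pow_mul]⟩

@[simp] lemma pow_coeff (s : PSec L m) (k : ℕ) (e : Chart n X) (z : Cm n) :
    (s.pow k).coeff e z = s.coeff e z ^ k := rfl

end PSec

end basic

section trans
variable {n m : ℕ} {X : Type*} [TopologicalSpace X] [ChartedSpace (Cm n) X] {L : ALB n X}

lemma tr_smooth {e e' : Chart n X} {x : X} (h : At e x) (h' : At e' x) :
    ContDiffAt ℝ ∞ (fun z => (L.tr e e' (e.symm z))) (e x) :=
  ((L.holo h h').restrict_scalars ℝ).of_le (by exact le_top)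

open Classical in
/-- coefficients of the section which is `f` in the chart `e₀` and vanishes outside the domain of
this chart -/
def locCoeff (L : ALB n X) (m : ℕ) (e₀ : Chart n X) (f : Cm n → ℂ) (e : Chart n X) (z : Cm n) : ℂ :=
  if e.symm z ∈ e₀.source then f (e₀ (e.symm z)) * (L.tr e e₀ (e.symm z)) ^ m else 0

lemma locCoeff_of_mem {e₀ : Chart n X} {f : Cm n → ℂ} {e : Chart n X} {x : X} (h : At e x)
    (hx : x ∈ e₀.source) : locCoeff L m e₀ f e (e x) = f (e₀ x) * (L.tr e e₀ x) ^ m := by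
  rw [locCoeff, h.left_inv, if_pos hx]

lemma locCoeff_of_notMem {e₀ : Chart n X} {f : Cm n → ℂ} {e : Chart n X} {x : X} (h : At e x)
    (hx : x ∉ e₀.source) : locCoeff L m e₀ f e (e x) = 0 := by
  rw [locCoeff, h.left_inv, if_neg hx]

lemma locCoeff_self {e₀ : Chart n X} (he₀ : e₀ ∈ atlas (Cm n) X) {f : Cm n → ℂ} {z : Cm n}
    (hz : z ∈ e₀.target) : locCoeff L m e₀ f e₀ z = f z := by
  have h := At.of_target he₀ hz
  rw [locCoeff, if_pos h.2, L.self h, one_pow, mul_one, e₀.right_inv hz]

/-- `locCoeff` vanishes near the points at which `f` vanishes nearby (in the chart `e₀`) or which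
are not in the compact set carrying `f` -/
lemma locCoeff_eventually_zero [T2Space X] {e₀ : Chart n X} {f : Cm n → ℂ}
    {K : Set (Cm n)} (hK : IsCompact K) (hKt : K ⊆ e₀.target) (hf : ∀ z, z ∉ K → f z = 0)
    {e : Chart n X} {x : X} (h : At e x) (hx : x ∉ e₀.symm '' K) :
    ∀ᶠ z in 𝓝 (e x), locCoeff L m e₀ f e z = 0 := by
  have hKc : IsClosed (e₀.symm '' K) :=
    (hK.image_of_continuousOn (e₀.continuousOn_symm.mono hKt)).isClosed
  have h1 : ∀ᶠ z in 𝓝 (e x), e.symm z ∈ (e₀.symm '' K)ᶜ := by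
    apply (e.continuousAt_symm h.mem_target).eventually_mem
    rw [h.left_inv]
    exact hKc.isOpen_compl.mem_nhds hx
  filter_upwards [h1] with z hz
  rw [locCoeff]
  split_ifs with hs
  · rw [hf _ fun hm => hz ⟨_, hm, e₀.left_inv hs⟩, zero_mul]
  · rfl

/-- The smooth section which is `f` in the chart `e₀`, where `f` is smooth on the target of the
chart and vanishes outside a compact subset `K` of the target. -/
def locSec [T2Space X] [IsManifold 𝓘(ℂ, Cm n) ω X] (L : ALB n X) (m : ℕ) (e₀ : Chart n X) (he₀ : e₀ ∈ atlas (Cm n) X) (f : Cm n → ℂ)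
    (hs : ∀ z ∈ e₀.target, ContDiffAt ℝ ∞ f z) (K : Set (Cm n)) (hK : IsCompact K)
    (hKt : K ⊆ e₀.target) (hf : ∀ z, z ∉ K → f z = 0) : SSec L m where
  coeff := locCoeff L m e₀ f
  smooth e x h := by
    by_cases hx : x ∈ e₀.source
    · have h₀ : At e₀ x := ⟨he₀, hx⟩
      have h1 : (fun z => f (e₀ (e.symm z)) * (L.tr e e₀ (e.symm z)) ^ m) =ᶠ[𝓝 (e x)]
          locCoeff L m e₀ f e := by
        filter_upwards [h.nhds_at h₀] with z hz
        rw [locCoeff, if_pos hz.2.2.2]
      refine ContDiffAt.congr_of_eventuallyEq ?_ h1.symm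
      have h2 : e₀ (e.symm (e x)) = e₀ x := by rw [h.left_inv]
      have h3 : ContDiffAt ℝ ∞ (fun z => f (e₀ (e.symm z))) (e x) :=
        ContDiffAt.comp (e x) (g := f) (by rw [h2]; exact hs _ h₀.mem_target)
          (transition_smooth h h₀)
      exact h3.mul ((tr_smooth h h₀).pow m)
    · have hx' : x ∉ e₀.symm '' K := by
        rintro ⟨z, hz, rfl⟩
        exact hx (e₀.map_target (hKt hz))
      exact contDiffAt_const.congr_of_eventuallyEq
        (locCoeff_eventually_zero hK hKt hf h hx')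
  change e e' x h h' := by
    by_cases hx : x ∈ e₀.source
    · rw [locCoeff_of_mem h hx, locCoeff_of_mem h' hx, L.comp h h' ⟨he₀, hx⟩,
        mul_pow, mul_assoc]
    · rw [locCoeff_of_notMem h hx, locCoeff_of_notMem h' hx, zero_mul]

@[simp] lemma locSec_coeff [T2Space X] [IsManifold 𝓘(ℂ, Cm n) ω X] (m : ℕ) (e₀ : Chart n X) (he₀) (f : Cm n → ℂ) (hs) (K)
    (hK) (hKt) (hf) : (locSec L m e₀ he₀ f hs K hK hKt hf).coeff = locCoeff L m e₀ f := rfl

/-- the pointwise norm does not depend on the chart -/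
lemma norm_change {φ : Chart n X → Cm n → ℝ} (hφ : IsMetric L φ) {c : Chart n X → Cm n → ℂ}
    (hc : ∀ (e e' : Chart n X) (x : X), At e x → At e' x →
      c e (e x) = c e' (e' x) * (L.tr e e' x) ^ m)
    {e e' : Chart n X} {x : X} (h : At e x) (h' : At e' x) :
    ‖c e (e x)‖ ^ 2 * Real.exp (-(m : ℝ) * φ e (e x)) =
      ‖c e' (e' x)‖ ^ 2 * Real.exp (-(m : ℝ) * φ e' (e' x)) := by
  have hd : 0 < ‖(L.tr e e' x)‖ ^ 2 :=
    pow_pos (norm_pos_iff.2 (L.ne_zero h h')) 2
  have h1 : Real.exp (-(m : ℝ) * φ e (e x)) =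
      Real.exp (-(m : ℝ) * φ e' (e' x)) * ((‖(L.tr e e' x)‖ ^ 2) ^ m)⁻¹ := by
    rw [hφ.change e e' x h h', mul_add, Real.exp_add]
    congr 1
    rw [neg_mul, Real.exp_neg, ← Real.log_pow, Real.exp_log (pow_pos hd m)]
  have hd' : ‖(L.tr e e' x)‖ ^ (2 * m) ≠ 0 :=
    pow_ne_zero _ (norm_ne_zero_iff.2 (L.ne_zero h h'))
  rw [h1, hc e e' x h h', norm_mul, norm_pow, mul_pow, ← pow_mul, ← pow_mul, Nat.mul_comm m 2]
  field_simp

end trans

end Vale.Agent.P299.H800.KOD
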