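import Vale.Agent.P272.KOD.Lim
import Vale.Agent.P299.H800.KOD.Tools

/-! Limits of almost holomorphic sections of powers of a line bundle (port of P272/KOD/Lim). -/

open scoped Manifold ContDiff ENNReal NNReal
open MeasureTheory Filter Topology Metric Set

noncomputable section

namespace Vale.Agent.P299.H800.KOD.Lim

open Vale.Agent.P272.K Vale.Agent.P272.KOD Vale.Agent.P272.KOD.Lim

variable {n : ℕ}

section glob

variable {X : Type*} [TopologicalSpace X] [ChartedSpace (Cm n) X] [IsManifold 𝓘(ℂ, Cm n) ω X]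
  {L : ALB n X}

lemma tr_diff {e e' : Chart n X} (he : e ∈ atlas (Cm n) X) (he' : e' ∈ atlas (Cm n) X)
    {V V' : Set (Cm n)} (hVt : V ⊆ e.target) :
    DifferentiableOn ℂ (fun z => L.tr e e' (e.symm z)) (ov e e' V V') := by
  rintro z ⟨h1, h2, h3⟩
  have h4 : At e (e.symm z) := At.of_target he (hVt h1)
  have h5 := (L.holo h4 (⟨he', h2⟩ : At e' (e.symm z))).differentiableAt (by simp)
  rw [e.right_inv (hVt h1)] at h5
  exact h5.differentiableWithinAt

/-- compatibility of the local limits -/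
lemma compat {e e' : Chart n X} (he : e ∈ atlas (Cm n) X) (he' : e' ∈ atlas (Cm n) X)
    {V V' : Set (Cm n)} (hV : IsOpen V) (hV' : IsOpen V') (hVt : V ⊆ e.target)
    (hVt' : V' ⊆ e'.target) (m : ℕ) {sig : ℕ → Chart n X → Cm n → ℂ}
    (hch : ∀ k (e e' : Chart n X) x, At e x → At e' x →
      sig k e (e x) = sig k e' (e' x) * (L.tr e e' x) ^ m)
    {G G' : Cm n → ℂ} (hG : DifferentiableOn ℂ G V) (hG' : DifferentiableOn ℂ G' V')
    (hl : ∀ᵐ z ∂(volume : Measure (Cm n)), z ∈ V → Tendsto (fun k => sig k e z) atTop (𝓝 (G z)))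
    (hl' : ∀ᵐ z ∂(volume : Measure (Cm n)), z ∈ V' →
      Tendsto (fun k => sig k e' z) atTop (𝓝 (G' z)))
    {x : X} (hx : x ∈ e.source) (hxV : e x ∈ V) (hx' : x ∈ e'.source) (hxV' : e' x ∈ V') :
    G (e x) = G' (e' x) * (L.tr e e' x) ^ m := by
  have hO := isOpen_ov (e := e) (e' := e') hV hV' hVt
  have hτ := trans_diff he he' (V := V) (V' := V') hVt
  have hJ := tr_diff (L := L) he he' (V := V) (V' := V') hVt
  have h1 := ae_trans he he' hVt hVt' hl'
  have h2 : EqOn G (fun z => G' (e' (e.symm z)) * (L.tr e e' (e.symm z)) ^ m)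
      (ov e e' V V') := by
    refine Measure.eqOn_open_of_ae_eq (μ := volume) ?_ hO (hG.continuousOn.mono fun z hz => hz.1) ?_
    · rw [EventuallyEq, ae_restrict_iff' hO.measurableSet]
      filter_upwards [hl, h1] with z hz1 hz2 hz
      have h3 := hz1 hz.1
      have h4 := (hz2 hz).mul_const ((L.tr e e' (e.symm z)) ^ m)
      refine tendsto_nhds_unique h3 (h4.congr fun k => ?_)
      have h5 : At e (e.symm z) := At.of_target he (hVt hz.1)
      have h6 := hch k e e' (e.symm z) h5 ⟨he', hz.2.1⟩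
      rw [e.right_inv (hVt hz.1)] at h6
      exact h6.symm
    · exact (hG'.continuousOn.comp hτ.continuousOn fun z hz => hz.2.2).mul (hJ.continuousOn.pow m)
  have h3 : e.symm (e x) = x := e.left_inv hx
  have h4 := h2 (show e x ∈ ov e e' V V' from ⟨hxV, by rw [h3]; exact hx', by rw [h3]; exact hxV'⟩)
  simp only [h3] at h4
  exact h4

/-- The limit of the iteration: a holomorphic section close to the initial smooth section. -/
theorem lim_sec {ι : Type*} (e : ι → Chart n X) (he : ∀ i, e i ∈ atlas (Cm n) X)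
    (V : ι → Set (Cm n)) (hV : ∀ i, IsOpen (V i)) (hVt : ∀ i, V i ⊆ (e i).target)
    (hcov : ∀ x : X, ∃ i, x ∈ (e i).source ∧ e i x ∈ V i)
    (ψ : ι → Cm n → ℝ) (hψ : ∀ i, ContinuousOn (ψ i) (V i))
    (hψB : ∀ i, ∃ B : ℝ, ∀ z ∈ V i, ψ i z ≤ B)
    (m : ℕ) (sig : ℕ → Chart n X → Cm n → ℂ)
    (hsc : ∀ k i, ContinuousOn (sig k (e i)) (V i))
    (hch : ∀ k (e e' : Chart n X) x, At e x → At e' x →
      sig k e (e x) = sig k e' (e' x) * (L.tr e e' x) ^ m)
    (F : ℕ → ι → Cm n → ℂ) (hF : ∀ k i, DifferentiableOn ℂ (F k i) (V i))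
    {a q : ℝ} (ha : 0 ≤ a) (hq0 : 0 ≤ q) (hq : q < 1)
    (h1 : ∀ k i, wn (V i) (ψ i) (fun z => F k i z - sig k (e i) z) ≤ ENNReal.ofReal (a * q ^ k))
    (h2 : ∀ k i, wn (V i) (ψ i) (fun z => sig (k + 1) (e i) z - sig k (e i) z) ≤
      ENNReal.ofReal (a * q ^ k)) :
    ∃ s : Chart n X → Cm n → ℂ,
      (∀ e ∈ atlas (Cm n) X, DifferentiableOn ℂ (s e) e.target) ∧
      (∀ (e e' : Chart n X) x, At e x → At e' x →
        s e (e x) = s e' (e' x) * (L.tr e e' x) ^ m) ∧
      ∀ i, wn (V i) (ψ i) (fun z => s (e i) z - sig 0 (e i) z) ≤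
        ENNReal.ofReal (2 * a / (1 - q)) := by
  have hq1 : 0 < 1 - q := by linarith
  -- the differences of the local approximations
  have h3 : ∀ k i, wn (V i) (ψ i) (fun z => F (k + 1) i z - F k i z) ≤
      ENNReal.ofReal (3 * a * q ^ k) := by
    intro k i
    have e1 : (fun z => F (k + 1) i z - F k i z) = fun z => (F (k + 1) i z - sig (k + 1) (e i) z) +
        ((sig (k + 1) (e i) z - sig k (e i) z) + (sig k (e i) z - F k i z)) := by
      funext z
      ring
    rw [e1]
    have c1 := (hF (k + 1) i).continuousOn.sub (hsc (k + 1) i)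
    have c2 := (hsc (k + 1) i).sub (hsc k i)
    have c3 := (hsc k i).sub (hF k i).continuousOn
    refine (wn_add_le (hV i) (hψ i) c1 (c2.add c3)).trans ?_
    have h4 : wn (V i) (ψ i) (fun z => F (k + 1) i z - sig (k + 1) (e i) z) ≤
        ENNReal.ofReal (a * q ^ k) := by
      refine (h1 (k + 1) i).trans (ENNReal.ofReal_le_ofReal ?_)
      refine mul_le_mul_of_nonneg_left ?_ ha
      exact pow_le_pow_of_le_one hq0 hq.le (Nat.le_succ k)
    have h5 : wn (V i) (ψ i) (fun z => sig k (e i) z - F k i z) ≤ ENNReal.ofReal (a * q ^ k) := by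
      rw [wn_sub_comm]
      exact h1 k i
    have h6 := wn_add_le (hV i) (hψ i) c2 c3
    refine (add_le_add h4 (h6.trans (add_le_add (h2 k i) h5))).trans (le_of_eq ?_)
    have h0 : 0 ≤ a * q ^ k := by positivity
    rw [← ENNReal.ofReal_add h0 h0, ← ENNReal.ofReal_add h0 (by positivity)]
    congr 1
    ring
  -- the local limits
  have h4 : ∀ i, ∃ G : Cm n → ℂ, DifferentiableOn ℂ G (V i) ∧
      ∀ z ∈ V i, Tendsto (fun k => F k i z) atTop (𝓝 (G z)) := fun i =>
    local_limit (hV i) (hψB i) (fun k => hF k i) (by positivity) hq0 hq (fun k => h3 k i)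
  choose G hG hGl using h4
  have hae : ∀ i, ∀ᵐ z ∂(volume : Measure (Cm n)), z ∈ V i →
      Tendsto (fun k => sig k (e i) z) atTop (𝓝 (G i z)) := by
    intro i
    have h5 := ae_tendsto (hV i) (hψ i) (fun k => (hF k i).continuousOn.sub (hsc k i)) hq0 hq
      (fun k => h1 k i)
    filter_upwards [h5] with z hz hzV
    have h6 := (hGl i z hzV).sub (hz hzV)
    rw [sub_zero] at h6
    refine h6.congr fun k => ?_
    simp only [Pi.sub_apply]
    ring
  have hcomp : ∀ i j x, x ∈ (e i).source → e i x ∈ V i → x ∈ (e j).source → e j x ∈ V j →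
      G i (e i x) = G j (e j x) * (L.tr (e i) (e j) x) ^ m := fun i j x a1 a2 a3 a4 =>
    compat (he i) (he j) (hV i) (hV j) (hVt i) (hVt j) m hch (hG i) (hG j) (hae i) (hae j)
      a1 a2 a3 a4
  choose idx hidx1 hidx2 using hcov
  set s : Chart n X → Cm n → ℂ := fun e' z => G (idx (e'.symm z)) (e (idx (e'.symm z)) (e'.symm z)) *
    (L.tr e' (e (idx (e'.symm z))) (e'.symm z)) ^ m with hs
  have hsx : ∀ (e' : Chart n X) x, At e' x → ∀ i, x ∈ (e i).source → e i x ∈ V i →
      s e' (e' x) = G i (e i x) * (L.tr e' (e i) x) ^ m := by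
    intro e' x hx i hxi hxV
    simp only [hs]
    rw [e'.left_inv hx.2, hcomp (idx x) i x (hidx1 x) (hidx2 x) hxi hxV,
      L.comp hx (⟨he _, hidx1 x⟩ : At (e (idx x)) x) (⟨he i, hxi⟩ : At (e i) x),
      mul_pow]
    ring
  have hchange : ∀ (e' e'' : Chart n X) x, At e' x → At e'' x →
      s e' (e' x) = s e'' (e'' x) * (L.tr e' e'' x) ^ m := by
    intro e' e'' x hx hx'
    rw [hsx e' x hx (idx x) (hidx1 x) (hidx2 x), hsx e'' x hx' (idx x) (hidx1 x) (hidx2 x),
      L.comp hx hx' (⟨he _, hidx1 x⟩ : At (e (idx x)) x), mul_pow]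
    ring
  refine ⟨s, ?_, hchange, ?_⟩
  · intro e' he' z hz
    set x := e'.symm z with hx
    have hAt : At e' x := At.of_target he' hz
    have hzx : e' x = z := e'.right_inv hz
    have hAi : At (e (idx x)) x := ⟨he _, hidx1 x⟩
    have hτ := transition_differentiableAt hAt hAi
    have hJ := (L.holo hAt hAi).differentiableAt (by simp)
    rw [hzx] at hτ hJ
    have hGd : DifferentiableAt ℂ (fun z => G (idx x) (e (idx x) (e'.symm z))) z := by
      have h6 : DifferentiableAt ℂ (G (idx x)) (e (idx x) (e'.symm z)) := by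
        rw [← hx]
        exact (hG _).differentiableAt ((hV _).mem_nhds (hidx2 x))
      exact h6.comp z hτ
    have hd := hGd.mul (hJ.pow m)
    refine (hd.congr_of_eventuallyEq ?_).differentiableWithinAt
    have hcont : ContinuousAt e'.symm z := e'.continuousAt_symm hz
    have hn : (e (idx x)).source ∩ (e (idx x)) ⁻¹' (V (idx x)) ∈ 𝓝 (e'.symm z) := by
      rw [← hx]
      exact ((e (idx x)).isOpen_inter_preimage (hV _)).mem_nhds ⟨hidx1 x, hidx2 x⟩
    filter_upwards [hcont.preimage_mem_nhds hn, e'.open_target.mem_nhds hz] with w hw hw'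
    have h7 := hsx e' (e'.symm w) (At.of_target he' hw') (idx x) hw.1 hw.2
    rw [e'.right_inv hw'] at h7
    exact h7
  · intro i
    have h5 : ∀ z ∈ V i, s (e i) z = G i z := by
      intro z hz
      have h6 : At (e i) ((e i).symm z) := At.of_target (he i) (hVt i hz)
      have h7 := hsx (e i) ((e i).symm z) h6 i h6.2 (by rw [(e i).right_inv (hVt i hz)]; exact hz)
      rw [L.self h6, (e i).right_inv (hVt i hz)] at h7
      rw [h7]
      simp
    rw [wn_congr (hV i) (g := fun z => G i z - sig 0 (e i) z) fun z hz => by rw [h5 z hz]]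
    refine wn_le_of_tendsto (hV i) (hψ i) (f := fun k z => F k i z - sig 0 (e i) z)
      (fun k => (hF k i).continuousOn.sub (hsc 0 i)) (fun z hz => (hGl i z hz).sub_const _) ?_
    -- the bound for the partial sums
    have h6 : ∀ k, wn (V i) (ψ i) (fun z => sig k (e i) z - sig 0 (e i) z) ≤
        ENNReal.ofReal (a * (1 - q ^ k) / (1 - q)) := by
      intro k
      induction k with
      | zero =>
        have : wn (V i) (ψ i) (fun z => sig 0 (e i) z - sig 0 (e i) z) = 0 := by
          unfold wn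
          simp
        rw [this]
        exact zero_le
      | succ k ih =>
        have e1 : (fun z => sig (k + 1) (e i) z - sig 0 (e i) z) =
            fun z => (sig (k + 1) (e i) z - sig k (e i) z) + (sig k (e i) z - sig 0 (e i) z) := by
          funext z
          ring
        rw [e1]
        refine (wn_add_le (hV i) (hψ i) ((hsc (k + 1) i).sub (hsc k i))
          ((hsc k i).sub (hsc 0 i))).trans ((add_le_add (h2 k i) ih).trans (le_of_eq ?_))
        have hqk : q ^ k ≤ 1 := pow_le_one₀ hq0 hq.le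
        rw [← ENNReal.ofReal_add (by positivity)
          (div_nonneg (mul_nonneg ha (by linarith)) hq1.le)]
        congr 1
        field_simp
        ring
    intro k
    have e1 : (fun z => F k i z - sig 0 (e i) z) =
        fun z => (F k i z - sig k (e i) z) + (sig k (e i) z - sig 0 (e i) z) := by
      funext z
      ring
    rw [e1]
    refine (wn_add_le (hV i) (hψ i) ((hF k i).continuousOn.sub (hsc k i))
      ((hsc k i).sub (hsc 0 i))).trans ((add_le_add (h1 k i) (h6 k)).trans ?_)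
    have hqk : q ^ k ≤ 1 := pow_le_one₀ hq0 hq.le
    have hqk0 : 0 ≤ q ^ k := by positivity
    rw [← ENNReal.ofReal_add (by positivity) (div_nonneg (mul_nonneg ha (by linarith)) hq1.le)]
    refine ENNReal.ofReal_le_ofReal ?_
    rw [le_div_iff₀ hq1]
    have e2 : (a * q ^ k + a * (1 - q ^ k) / (1 - q)) * (1 - q) =
        a - a * q ^ k * q := by
      field_simp
      ring
    rw [e2]
    nlinarith [mul_nonneg (mul_nonneg ha hqk0) hq0]

end glob

/-! ### The form used in the iteration -/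

section final

variable {X : Type} [TopologicalSpace X] [ChartedSpace (Cm n) X] [IsManifold 𝓘(ℂ, Cm n) ω X]
  {L : ALB n X}

/-- LIM: the limit of the iteration of almost holomorphic smooth sections is a holomorphic section
close to the initial one. -/
theorem lim_psec {ι : Type*} (e : ι → Chart n X) (he : ∀ i, e i ∈ atlas (Cm n) X)
    (V : ι → Set (Cm n)) (hV : ∀ i, IsOpen (V i)) (hVc : ∀ i, IsCompact (closure (V i)))
    (hVt : ∀ i, closure (V i) ⊆ (e i).target)
    (hcov : ∀ x : X, ∃ i, x ∈ (e i).source ∧ e i x ∈ V i)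
    {φ : Chart n X → Cm n → ℝ} (hφ : IsMetric L φ) (m : ℕ) (sig : ℕ → SSec L m)
    (F : ℕ → ι → Cm n → ℂ) (hF : ∀ k i, DifferentiableOn ℂ (F k i) (V i))
    {A q : ℝ} (hA : 0 ≤ A) (hq0 : 0 ≤ q) (hq : q < 1)
    (h1 : ∀ k i, nrm n m (φ (e i)) (V i) (fun z => F k i z - (sig k).coeff (e i) z) ≤
      ENNReal.ofReal (A * q ^ k))
    (h2 : ∀ k i, nrm n m (φ (e i)) (V i)
      (fun z => (sig (k + 1)).coeff (e i) z - (sig k).coeff (e i) z) ≤
      ENNReal.ofReal (A * q ^ k)) :
    ∃ s : PSec L m, ∀ i, nrm n m (φ (e i)) (V i)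
      (fun z => (sig 0).coeff (e i) z - s.coeff (e i) z) ≤
        ENNReal.ofReal ((2 / (1 - Real.sqrt q)) ^ 2 * A) := by
  set q' : ℝ := Real.sqrt q with hq'
  have hq'0 : 0 ≤ q' := Real.sqrt_nonneg _
  have hq'1 : q' < 1 := by
    rw [hq', Real.sqrt_lt' one_pos]
    simpa using hq
  have hsub : ∀ i, V i ⊆ (e i).target := fun i => subset_closure.trans (hVt i)
  have hφc : ∀ i, ContinuousOn (φ (e i)) (closure (V i)) := by
    intro i z hz
    have h3 := hφ.smooth (e i) ((e i).symm z) (At.of_target (he i) (hVt i hz))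
    rw [(e i).right_inv (hVt i hz)] at h3
    exact h3.continuousAt.continuousWithinAt
  have hsqrt : ∀ k : ℕ, Real.sqrt (A * q ^ k) = Real.sqrt A * q' ^ k := by
    intro k
    have h3 : q ^ k = (Real.sqrt q ^ k) ^ 2 := by
      rw [← pow_mul, mul_comm k 2, pow_mul, Real.sq_sqrt hq0]
    rw [Real.sqrt_mul hA, hq', h3, Real.sqrt_sq (by positivity)]
  obtain ⟨s, hs1, hs2, hs3⟩ := lim_sec e he V hV hsub hcov (fun i z => (m : ℝ) * φ (e i) z)
    (fun i => continuousOn_const.mul ((hφc i).mono subset_closure))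
    (fun i => by
      obtain ⟨B, hB⟩ := (hVc i).bddAbove_image (hφc i)
      exact ⟨m * B, fun z hz => mul_le_mul_of_nonneg_left (hB ⟨z, subset_closure hz, rfl⟩)
        (Nat.cast_nonneg m)⟩)
    m (fun k => (sig k).coeff)
    (fun k i z hz => by
      have h3 := (sig k).smooth (e i) ((e i).symm z) (At.of_target (he i) (hsub i hz))
      rw [(e i).right_inv (hsub i hz)] at h3
      exact h3.continuousAt.continuousWithinAt)
    (fun k => (sig k).change) F hF (a := Real.sqrt A) (q := q') (Real.sqrt_nonneg _) hq'0 hq'1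
    (fun k i => by
      rw [← hsqrt k]
      exact wn_le_of_nrm (by positivity) (h1 k i))
    (fun k i => by
      rw [← hsqrt k]
      exact wn_le_of_nrm (by positivity) (h2 k i))
  refine ⟨⟨s, fun e' x hx => Vale.Agent.P268.analyticAt_of_differentiableOn e'.open_target
    (hs1 e' hx.1) (e'.map_source hx.2), hs2⟩, fun i => ?_⟩
  rw [← wn_sq_nrm, wn_sub_comm]
  have hq1 : 0 < 1 - q' := by linarith
  refine (pow_le_pow_left' (hs3 i) 2).trans (le_of_eq ?_)
  rw [← ENNReal.ofReal_pow (by positivity)]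
  congr 1
  calc (2 * Real.sqrt A / (1 - q')) ^ 2 = (2 / (1 - q')) ^ 2 * Real.sqrt A ^ 2 := by ring
    _ = (2 / (1 - q')) ^ 2 * A := by rw [Real.sq_sqrt hA]

end final

end Vale.Agent.P299.H800.KOD.Lim
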