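import Vale.Agent.P299.H800.KOD.StepA
import Vale.Agent.P272.KOD.Loc
import Vale.Agent.P299.H800.KOD.KeyOf

/-! Stage 4: one averaging step, and the key estimate. -/

open scoped Manifold ContDiff ComplexOrder Topology ENNReal ComplexConjugate
open MeasureTheory Filter

set_option linter.all false

noncomputable section

namespace Vale.Agent.P299.H800.KOD

open Vale.Agent.P272.K Vale.Agent.P272.KOD

/-- One averaging step. -/
theorem step : StepStmt := by
  intro n X _ _ _ _ _ L φ C lam hφ hP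
  obtain ⟨hlam, hpos⟩ := hP
  obtain ⟨B, hB, hstep⟩ := step_glue C hφ
  refine ⟨2 / lam + B * (2 / lam), by positivity, fun m hm σ A hA hd => ?_⟩
  have hm0 : (0 : ℝ) < m := by exact_mod_cast hm
  have hφ2 : ∀ i, ∀ z ∈ Metric.closedBall (C.c i) (C.r i), ContDiffAt ℝ 2 (φ (C.e i)) z := by
    intro i z hz
    have h := hφ.smooth _ _ (At.of_target (C.mem i) (C.sub i hz))
    rw [(C.e i).right_inv (C.sub i hz)] at h
    exact h.of_le (by norm_cast)
  have hs2 : ∀ i, ∀ z ∈ Metric.closedBall (C.c i) (C.r i),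
      ContDiffAt ℝ 2 (σ.coeff (C.e i)) z := by
    intro i z hz
    have h := σ.smooth _ _ (At.of_target (C.mem i) (C.sub i hz))
    rw [(C.e i).right_inv (C.sub i hz)] at h
    exact h.of_le (by norm_cast)
  have hex : ∀ i, ∃ F : Cm n → ℂ, DifferentiableOn ℂ F (C.V i) ∧
      nrm n m (φ (C.e i)) (C.V i) (fun z => F z - σ.coeff (C.e i) z) ≤
        ENNReal.ofReal (2 / ((m : ℝ) * lam) * A) := fun i =>
    loc_nrm (C.pos i) (hφ2 i) hlam (hpos i) hm (hs2 i) hA (hd i)
  choose F hF hn using hex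
  have hA' : 0 ≤ 2 / ((m : ℝ) * lam) * A := by positivity
  obtain ⟨h1, h2⟩ := hstep m σ F hF _ hA' hn
  have e1 : 2 / ((m : ℝ) * lam) * A ≤ (2 / lam + B * (2 / lam)) / m * A := by
    have : (2 / lam + B * (2 / lam)) / m * A =
        2 / ((m : ℝ) * lam) * A + B * (2 / ((m : ℝ) * lam) * A) := by
      field_simp
    rw [this]
    have : 0 ≤ B * (2 / ((m : ℝ) * lam) * A) := by positivity
    linarith
  have e2 : B * (2 / ((m : ℝ) * lam) * A) ≤ (2 / lam + B * (2 / lam)) / m * A := by
    have : (2 / lam + B * (2 / lam)) / m * A =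
        2 / ((m : ℝ) * lam) * A + B * (2 / ((m : ℝ) * lam) * A) := by
      field_simp
    rw [this]
    linarith
  exact ⟨F, glue L m C F hF, hF, fun i => (hn i).trans (ENNReal.ofReal_le_ofReal e1),
    fun i => (h1 i).trans (ENNReal.ofReal_le_ofReal e2),
    fun i => (h2 i).trans (ENNReal.ofReal_le_ofReal e2)⟩

/-- **The key estimate.** -/
theorem key (n : ℕ) (X : Type) [TopologicalSpace X] [T2Space X]
    [CompactSpace X] [ChartedSpace (Cm n) X] [IsManifold 𝓘(ℂ, Cm n) ω X] (L : ALB n X)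
    (φ : Chart n X → Cm n → ℝ) (hφ : IsMetric L φ)
    (hpos : ∀ e x, At e x → (cHess (φ e) (e x)).PosDef) : Key L φ :=
  key_of_step step n X L φ hφ hpos

end Vale.Agent.P299.H800.KOD
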