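import Vale.Agent.P299.H800.KOD.Peak
import Vale.Agent.P299.H800.KOD.Soft3
import Vale.Agent.P299.H800.KOD.Step

/-!
# P299 / H800: Kodaira's embedding theorem for a positive line bundle

If the line bundle `L` on the compact complex manifold `X` carries a metric of positive curvature,
then sections of some power of `L` define a holomorphic embedding of `X` into a projective space.
-/

open scoped Manifold ContDiff ComplexOrder

noncomputable section

namespace Vale.Agent.P299.H800.KOD

open Vale.Agent.P272.K Vale.Agent.P272.KOD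

/-- **Kodaira's embedding theorem**, level form: for some `m ≥ 1` the sections of `L^m` span the
`1`-jets at all points and separate all pairs of points. -/
theorem kodaira_level (n : ℕ) (X : Type) [TopologicalSpace X] [T2Space X] [CompactSpace X]
    [ChartedSpace (Cm n) X] [IsManifold 𝓘(ℂ, Cm n) ω X] (L : ALB n X)
    (φ : Chart n X → Cm n → ℝ) (hφ : IsMetric L φ)
    (hpos : ∀ e x, At e x → (cHess (φ e) (e x)).PosDef) :
    ∃ m, 1 ≤ m ∧ (∀ x : X, JetP L m x) ∧ ∀ x y : X, x ≠ y → SepP L m x y := by
  obtain ⟨h1, h2⟩ := peak n X L φ hφ hpos (key n X L φ hφ hpos)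
  exact soft_level h1 h2

/-- **Kodaira's embedding theorem**: a line bundle with a metric of positive curvature on a compact
complex manifold is ample. -/
theorem kodaira (n : ℕ) (X : Type) [TopologicalSpace X] [T2Space X] [CompactSpace X]
    [ChartedSpace (Cm n) X] [IsManifold 𝓘(ℂ, Cm n) ω X] (L : ALB n X)
    (φ : Chart n X → Cm n → ℝ) (hφ : IsMetric L φ)
    (hpos : ∀ e x, At e x → (cHess (φ e) (e x)).PosDef) : Ample L := by
  obtain ⟨m, hm, h1, h2⟩ := kodaira_level n X L φ hφ hpos
  exact soft (fun x => ⟨m, hm, h1 x⟩) (fun x y hxy => ⟨m, hm, h2 x y hxy⟩)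

end Vale.Agent.P299.H800.KOD
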