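import Vale.Agent.P272.KOD.Defs
import Vale.Agent.P272.K.Inv.Chart

/-!
# P299 / H800: holomorphic line bundles trivialised over the charts of the atlas

`ALB n X`: a holomorphic line bundle on `X` given by its transition functions on the overlaps of
the charts of the atlas of `X`. The conventions are those of `Vale.Agent.P272.KOD` for the canonical
bundle, whose transition functions are `det (jacM e e' x)`.
-/

open scoped Manifold ContDiff ComplexOrder
open MeasureTheory

set_option linter.all false

noncomputable section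

namespace Vale.Agent.P299.H800.KOD

open Vale.Agent.P272.K Vale.Agent.P272.KOD

/-- A holomorphic line bundle on `X`, given by transition functions for the charts of the atlas. -/
structure ALB (n : ℕ) (X : Type*) [TopologicalSpace X] [ChartedSpace (Cm n) X] where
  tr : Chart n X → Chart n X → X → ℂ
  hol : ∀ (e e' : Chart n X) (x : X), At e x → At e' x →
    ContDiffAt ℂ ω (fun z => tr e e' (e.symm z)) (e x)
  ne : ∀ (e e' : Chart n X) (x : X), At e x → At e' x → tr e e' x ≠ 0
  coc : ∀ (e e' e'' : Chart n X) (x : X), At e x → At e' x → At e'' x →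
    tr e e'' x = tr e' e'' x * tr e e' x

section
variable {n : ℕ} {X : Type*} [TopologicalSpace X] [ChartedSpace (Cm n) X] (L : ALB n X)
  {e e' e'' : Chart n X} {x : X}

lemma ALB.holo (h : At e x) (h' : At e' x) :
    ContDiffAt ℂ ω (fun z => L.tr e e' (e.symm z)) (e x) := L.hol e e' x h h'

lemma ALB.ne_zero (h : At e x) (h' : At e' x) : L.tr e e' x ≠ 0 := L.ne e e' x h h'

lemma ALB.comp (h : At e x) (h' : At e' x) (h'' : At e'' x) :
    L.tr e e'' x = L.tr e' e'' x * L.tr e e' x := L.coc e e' e'' x h h' h''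

lemma ALB.self (h : At e x) : L.tr e e x = 1 := by
  have h1 := L.comp h h h
  have h2 := L.ne_zero h h
  exact mul_left_cancel₀ h2 (by rw [mul_one]; exact h1.symm)

lemma ALB.mul_inv (h : At e x) (h' : At e' x) : L.tr e' e x * L.tr e e' x = 1 := by
  rw [← L.comp h h' h, L.self h]

/-- A holomorphic section of the `m`-th power of `L`. -/
structure PSec (L : ALB n X) (m : ℕ) where
  coeff : Chart n X → Cm n → ℂ
  holo : ∀ (e : Chart n X) (x : X), At e x → AnalyticAt ℂ (coeff e) (e x)
  change : ∀ (e e' : Chart n X) (x : X), At e x → At e' x →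
    coeff e (e x) = coeff e' (e' x) * L.tr e e' x ^ m

/-- A smooth section of the `m`-th power of `L`. -/
structure SSec (L : ALB n X) (m : ℕ) where
  coeff : Chart n X → Cm n → ℂ
  smooth : ∀ (e : Chart n X) (x : X), At e x → ContDiffAt ℝ ∞ (coeff e) (e x)
  change : ∀ (e e' : Chart n X) (x : X), At e x → At e' x →
    coeff e (e x) = coeff e' (e' x) * L.tr e e' x ^ m

/-- `φ` are the weights of a smooth Hermitian metric on `L`: the norm of a section with coefficient
`s` in the chart `e` is `|s|^2 exp (-φ e)`, its curvature form is `i∂∂̄(φ e)`. -/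
structure IsMetric (L : ALB n X) (φ : Chart n X → Cm n → ℝ) : Prop where
  smooth : ∀ e x, At e x → ContDiffAt ℝ ∞ (φ e) (e x)
  change : ∀ e e' x, At e x → At e' x →
    φ e (e x) = φ e' (e' x) + Real.log (‖L.tr e e' x‖ ^ 2)

variable {L} {m : ℕ}

/-- The value of a section at `x` in the preferred chart at `x`. -/
def PSec.val (s : PSec L m) (x : X) : ℂ :=
  s.coeff (chartAt (Cm n) x) (chartAt (Cm n) x x)

/-- The derivative at `x`, in the preferred chart at `x`, of the map `s_j / s_i`. -/
def dratio {N : ℕ} (s : Fin (N + 1) → PSec L m) (x : X) (i j : Fin (N + 1)) : Cm n →L[ℂ] ℂ :=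
  fderiv ℂ (fun z => (s j).coeff (chartAt (Cm n) x) z / (s i).coeff (chartAt (Cm n) x) z)
    (chartAt (Cm n) x x)

/-- The sections `s_0, …, s_N` of `L^m` define a holomorphic embedding of the compact manifold
`X` into the projective space `ℙ^N`. -/
structure DefinesEmbedding {N : ℕ} (s : Fin (N + 1) → PSec L m) : Prop where
  ne_zero : ∀ x, (fun i => (s i).val x) ≠ 0
  injective : Function.Injective fun x =>
    Projectivization.mk ℂ (fun i : Fin (N + 1) => (s i).val x) (ne_zero x)
  immersive : ∀ x i, (s i).val x ≠ 0 → ∀ v : Cm n, (∀ j, dratio s x i j v = 0) → v = 0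

variable (L) in
/-- `L` is ample: for some `m ≥ 1` finitely many holomorphic sections of `L^m` define a
holomorphic embedding of `X` into a projective space. -/
def Ample : Prop :=
  ∃ m : ℕ, 1 ≤ m ∧ ∃ (N : ℕ) (s : Fin (N + 1) → PSec L m), DefinesEmbedding s

variable (L m) in
/-- Some sections of `L^m` have a nonzero value and span the `1`-jets at `x`. -/
def JetAt (x : X) : Prop :=
  ∃ (s : Fin (n + 1) → PSec L m) (e : Chart n X), At e x ∧ (s 0).coeff e (e x) ≠ 0 ∧
    (Matrix.of fun i j : Fin n =>
      dz j (fun z => (s i.succ).coeff e z / (s 0).coeff e z) (e x)).det ≠ 0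

variable (L m) in
/-- Some sections of `L^m` separate `x` and `y`. -/
def SepAt (x y : X) : Prop :=
  ∃ (s t : PSec L m) (e e' : Chart n X), At e x ∧ At e' y ∧
    s.coeff e (e x) * t.coeff e' (e' y) - s.coeff e' (e' y) * t.coeff e (e x) ≠ 0

end

section blocks

variable {n : ℕ} {X : Type} [TopologicalSpace X] [ChartedSpace (Cm n) X]

/-- KEY: approximation of smooth sections of `L^m` by holomorphic ones, for a fixed
finite family of coordinate domains covering `X`, with constants independent of `m`. -/
def Key (L : ALB n X) (φ : Chart n X → Cm n → ℝ) : Prop :=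
  ∃ (N : ℕ) (e : Fin N → Chart n X) (V : Fin N → Set (Cm n)) (C : ℝ) (m₀ : ℕ),
    0 ≤ C ∧ 1 ≤ m₀ ∧ (∀ i, e i ∈ atlas (Cm n) X) ∧ (∀ i, IsOpen (V i)) ∧
    (∀ i, IsCompact (closure (V i))) ∧ (∀ i, closure (V i) ⊆ (e i).target) ∧
    (∀ x, ∃ i, x ∈ (e i).source ∧ e i x ∈ V i) ∧
    ∀ m, m₀ ≤ m → ∀ σ : SSec L m, ∃ s : PSec L m, ∀ i,
      nrm n m (φ (e i)) (V i) (fun z => σ.coeff (e i) z - s.coeff (e i) z) ≤
        ENNReal.ofReal C * ∑ j, dnrm n m (φ (e j)) (V j) (σ.coeff (e j))

end blocks

end Vale.Agent.P299.H800.KOD
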