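import Vale.Agent.P272.KOD.CovKD
import Vale.Agent.P299.H800.KOD.Defs

/-! Good covers for a positively curved metric on a line bundle. -/

open scoped Manifold ContDiff ComplexOrder Topology ENNReal ComplexConjugate
open MeasureTheory Set Metric

set_option linter.all false

noncomputable section

namespace Vale.Agent.P299.H800.KOD

open Vale.Agent.P272.K Vale.Agent.P272.KOD Vale.Agent.P272.K.LIN

variable {n : ℕ} {X : Type*} [TopologicalSpace X] [ChartedSpace (Cm n) X]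
  [IsManifold 𝓘(ℂ, Cm n) ω X] {L : ALB n X}

/-- **Existence of the cover.** -/
theorem exists_cover [T2Space X] [CompactSpace X] {φ : Chart n X → Cm n → ℝ}
    (hφ : IsMetric L φ) (hpos : ∀ e x, At e x → (cHess (φ e) (e x)).PosDef) :
    ∃ (N : ℕ) (e : Fin N → Chart n X) (c : Fin N → Cm n) (r : Fin N → ℝ)
      (χ : Fin N → X → ℝ) (lam : ℝ), (∀ i, e i ∈ atlas (Cm n) X) ∧ (∀ i, 0 < r i) ∧
      (∀ i, closedBall (c i) (3 * r i) ⊆ (e i).target) ∧ (∀ i, SmoothFn (n := n) (χ i)) ∧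
      (∀ i x, 0 ≤ χ i x) ∧ (∀ x, ∑ i, χ i x = 1) ∧
      (∀ i x, χ i x ≠ 0 → x ∈ (e i).source ∧ e i x ∈ closedBall (c i) (2 * r i)) ∧ 0 < lam ∧
      ∀ i, ∀ z ∈ closedBall (c i) (3 * r i), ∀ β : Cm n, lam * ∑ j, ‖β j‖ ^ 2 ≤
        (∑ j, ∑ k, cHess (φ (e i)) z j k * β j * conj (β k)).re := by
  obtain ⟨𝒞⟩ := Cov.nonempty (Cm n) X
  have h1 : ∀ i, ∃ lam : ℝ, 0 < lam ∧ ∀ z ∈ closedBall (𝒞.c i) (3 * 𝒞.r i), ∀ β : Cm n,
      lam * ∑ j, ‖β j‖ ^ 2 ≤ (∑ j, ∑ k, cHess (φ (𝒞.e i)) z j k * β j * conj (β k)).re := by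
    intro i
    refine exists_lam (isCompact_closedBall _ _) (fun z hz => ?_) fun z hz => ?_
    · have := hφ.smooth (𝒞.e i) ((𝒞.e i).symm z) (At.of_target (𝒞.mem i) (𝒞.sub i hz))
      rwa [(𝒞.e i).right_inv (𝒞.sub i hz)] at this
    · have := hpos (𝒞.e i) ((𝒞.e i).symm z) (At.of_target (𝒞.mem i) (𝒞.sub i hz))
      rwa [(𝒞.e i).right_inv (𝒞.sub i hz)] at this
  choose lam hlam hlam' using h1
  obtain ⟨l, hl, hl'⟩ : ∃ l : ℝ, 0 < l ∧ ∀ i, l ≤ lam i := by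
    rcases Nat.eq_zero_or_pos 𝒞.N with h0 | h0
    · refine ⟨1, one_pos, fun i => absurd i.2 (by omega)⟩
    · have : Nonempty (Fin 𝒞.N) := ⟨⟨0, h0⟩⟩
      obtain ⟨i0, hi0⟩ := Finite.exists_min lam
      exact ⟨lam i0, hlam i0, hi0⟩
  refine ⟨𝒞.N, 𝒞.e, 𝒞.c, 𝒞.r, chi 𝒞, l, 𝒞.mem, 𝒞.r_pos, 𝒞.sub, chi_smooth 𝒞, chi_nonneg 𝒞,
    chi_sum 𝒞, fun i x h => chi_ne_zero 𝒞 h, hl, fun i z hz β => ?_⟩
  refine le_trans ?_ (hlam' i z hz β)
  exact mul_le_mul_of_nonneg_right (hl' i) (Finset.sum_nonneg fun j _ => by positivity)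

/-- **Existence of a good cover** on which the curvature of `φ` is uniformly positive. -/
theorem exists_pcov [T2Space X] [CompactSpace X] {φ : Chart n X → Cm n → ℝ}
    (hφ : IsMetric L φ) (hpos : ∀ e x, At e x → (cHess (φ e) (e x)).PosDef) :
    ∃ (C : PCov n X) (lam : ℝ), C.Pos φ lam := by
  obtain ⟨N, e, c, r, χ, lam, hmem, hr, hsub, hsm, hnn, hsum, hsupp, hlam, hlev⟩ :=
    exists_cover hφ hpos
  refine ⟨⟨N, e, hmem, c, fun i => 3 * r i, fun i => by have := hr i; positivity, hsub, χ, hsm,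
    hnn, hsum, fun i => closedBall (c i) (2 * r i), fun i => isCompact_closedBall _ _,
    fun i => closedBall_subset_ball (by have := hr i; linarith), hsupp⟩, lam, hlam, hlev⟩

end Vale.Agent.P299.H800.KOD
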