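import Vale.Agent.P299.H800.KOD.PX1
import Vale.Agent.P272.KOD.Peak

/-!
# P272, stage 4 (Kodaira embedding), block K4: peak sections on `X`

`peakStmt : PeakStmt`: for a canonical metric with positive curvature, the approximation statement
`Key` implies that the sections of the powers of the canonical bundle span all `1`-jets at all points
and separate the points.
-/

open scoped Manifold ContDiff ComplexOrder Topology
open MeasureTheory Set Filter Metric

set_option linter.all false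

noncomputable section

namespace Vale.Agent.P299.H800.KOD

open Vale.Agent.P272.K Vale.Agent.P272.KOD

section

variable {n : ℕ} {X : Type} [TopologicalSpace X] [ChartedSpace (Cm n) X]
  [IsManifold 𝓘(ℂ, Cm n) ω X] {L : ALB n X}

/-- the data extracted from `Key` -/
structure KeyData (L : ALB n X) (φ : Chart n X → Cm n → ℝ) where
  N : ℕ
  e : Fin N → Chart n X
  V : Fin N → Set (Cm n)
  C : ℝ
  m₀ : ℕ
  C_nonneg : 0 ≤ C
  one_le : 1 ≤ m₀
  atl : ∀ i, e i ∈ atlas (Cm n) X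
  isOpen : ∀ i, IsOpen (V i)
  cpt : ∀ i, IsCompact (closure (V i))
  sub : ∀ i, closure (V i) ⊆ (e i).target
  cov : ∀ x, ∃ i, x ∈ (e i).source ∧ e i x ∈ V i
  key : ∀ m, m₀ ≤ m → ∀ σ : SSec L m, ∃ s : PSec L m, ∀ i,
      nrm n m (φ (e i)) (V i) (fun z => σ.coeff (e i) z - s.coeff (e i) z) ≤
        ENNReal.ofReal C * ∑ j, dnrm n m (φ (e j)) (V j) (σ.coeff (e j))

omit [IsManifold 𝓘(ℂ, Cm n) ω X] in
lemma Key.data {φ : Chart n X → Cm n → ℝ} (h : Key L φ) : Nonempty (KeyData L φ) := by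
  obtain ⟨N, e, V, C, m₀, h1, h2, h3, h4, h5, h6, h7, h8⟩ := h
  exact ⟨⟨N, e, V, C, m₀, h1, h2, h3, h4, h5, h6, h7, h8⟩⟩

omit [IsManifold 𝓘(ℂ, Cm n) ω X] in
lemma PSec.differentiableOn {m : ℕ} (s : PSec L m) {e : Chart n X} (he : e ∈ atlas (Cm n) X)
    {S : Set (Cm n)} (hS : S ⊆ e.target) : DifferentiableOn ℂ (s.coeff e) S := by
  intro z hz
  have h : At e (e.symm z) := ⟨he, e.map_target (hS hz)⟩
  have := s.holo e _ h
  rw [e.right_inv (hS hz)] at this
  exact this.differentiableAt.differentiableWithinAt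

/-- Holomorphic sections approximating the peak functions at the centre `c` of the chart domain
`V i`; they are exponentially small away from the support of the peak functions. -/
theorem exists_approx [T2Space X] {φ : Chart n X → Cm n → ℝ} (hφ : IsMetric L φ)
    (D : KeyData L φ) (i : Fin D.N) {c : Cm n} {h : Cm n → ℂ} {a A R r : ℝ}
    (N : NF (φ (D.e i)) c h a A R) (hr : 0 < r) (hrR : r < R) (hrV : closedBall c r ⊆ D.V i) :
    ∃ (K : ℝ) (s : ∀ k : ℕ, Fin (n + 1) → PSec L k), 0 ≤ K ∧ ∀ k, D.m₀ ≤ k → ∀ q,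
      (nrm n k (φ (D.e i)) (ball c (r / 2))
        (fun z => qf c q z * frm h k z - (s k q).coeff (D.e i) z) ≤
          ENNReal.ofReal (K * Real.exp (-(a * r ^ 2 / 4) * k))) ∧
      ∀ (j : Fin D.N) (S : Set (Cm n)), MeasurableSet S → S ⊆ D.V j →
        (∀ z ∈ S, (D.e j).symm z ∉ (D.e i).symm '' closedBall c r) →
        nrm n k (φ (D.e j)) S ((s k q).coeff (D.e j)) ≤
          ENNReal.ofReal (K * Real.exp (-(a * r ^ 2 / 4) * k)) := by
  classical
  have hea := D.atl i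
  have hK : IsCompact (closedBall c r) := isCompact_closedBall c r
  have hVt : D.V i ⊆ (D.e i).target := subset_closure.trans (D.sub i)
  have hKt : closedBall c r ⊆ (D.e i).target := hrV.trans hVt
  obtain ⟨χ, hχ⟩ := exists_cut c hr
  obtain ⟨C0, hC0, hd⟩ := N.dbar_bound hr hrR hχ
  obtain ⟨C1, hC1, hsum⟩ := sum_dnrm_le hφ D.atl D.cpt D.sub hea hK hKt
  let σ : ∀ k : ℕ, Fin (n + 1) → SSec L k := fun k q =>
    locSec L k (D.e i) hea (pk χ c h k q) (fun z _ => (pk_contDiff hχ N.diff k q).contDiffAt)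
      (closedBall c r) hK hKt (fun z hz => pk_eq_zero hχ h k q hz)
  have hσ1 : ∀ k q, ∀ z ∈ (D.e i).target, (σ k q).coeff (D.e i) z = pk χ c h k q z := by
    intro k q z hz
    show locCoeff L k (D.e i) (pk χ c h k q) (D.e i) z = _
    exact locCoeff_self hea hz
  have hσ0 : ∀ k q (e' : Chart n X) (x : X), At e' x → x ∉ (D.e i).symm '' closedBall c r →
      (σ k q).coeff e' (e' x) = 0 := by
    intro k q e' x hx hxK
    by_cases hxs : x ∈ (D.e i).source
    · have h1 := (σ k q).change e' (D.e i) x hx ⟨hea, hxs⟩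
      rw [h1, hσ1 k q (D.e i x) ((D.e i).map_source hxs),
        pk_eq_zero hχ h k q (fun hK' => hxK ⟨D.e i x, hK', (D.e i).left_inv hxs⟩), zero_mul]
    · show locCoeff L k (D.e i) (pk χ c h k q) e' (e' x) = 0
      exact locCoeff_of_notMem hx hxs
  have hdn : ∀ k q, ∑ j, dnrm n k (φ (D.e j)) (D.V j) ((σ k q).coeff (D.e j)) ≤
      ENNReal.ofReal (C1 * (C0 * Real.exp (-(a * r ^ 2 / 4) * k))) := by
    intro k q
    refine hsum k (σ k q) _ (by positivity) (fun e' x hx hxK => hσ0 k q e' x hx hxK) (fun z hz => ?_)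
    have h1 : (σ k q).coeff (D.e i) =ᶠ[𝓝 z] pk χ c h k q := by
      filter_upwards [(D.e i).open_target.mem_nhds (hKt hz)] with y hy using hσ1 k q y hy
    have h2 : ∀ l, dzb l ((σ k q).coeff (D.e i)) z = dzb l (pk χ c h k q) z := fun l => by
      rw [dzb_congr h1]
    simp only [h2]
    exact hd k q z
  let s : ∀ k : ℕ, Fin (n + 1) → PSec L k := fun k q =>
    if hk : D.m₀ ≤ k then (D.key k hk (σ k q)).choose else 0
  have hs : ∀ k, D.m₀ ≤ k → ∀ q j, nrm n k (φ (D.e j)) (D.V j)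
      (fun z => (σ k q).coeff (D.e j) z - (s k q).coeff (D.e j) z) ≤
      ENNReal.ofReal ((D.C * C1 * C0) * Real.exp (-(a * r ^ 2 / 4) * k)) := by
    intro k hk q j
    have h1 := (D.key k hk (σ k q)).choose_spec j
    have h2 : s k q = (D.key k hk (σ k q)).choose := dif_pos hk
    rw [h2]
    refine h1.trans ?_
    calc _ ≤ ENNReal.ofReal D.C * ENNReal.ofReal (C1 * (C0 * Real.exp (-(a * r ^ 2 / 4) * k))) := by
          gcongr
          exact hdn k q
      _ = _ := by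
          rw [← ENNReal.ofReal_mul D.C_nonneg]
          congr 1
          ring
  have hDC := D.C_nonneg
  refine ⟨D.C * C1 * C0, s, by positivity, fun k hk q => ⟨?_, ?_⟩⟩
  · refine le_trans (le_of_eq ?_) ((nrm_mono (m := k) (φ := φ (D.e i)) (S := ball c (r / 2))
      (T := D.V i) (fun z hz => hrV (ball_subset_closedBall (ball_subset_ball (by linarith) hz)))
      _).trans (hs k hk q i))
    apply nrm_congr measurableSet_ball
    intro z hz
    have hz1 : z ∈ D.V i := hrV (ball_subset_closedBall (ball_subset_ball (by linarith) hz))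
    rw [hσ1 k q z (hVt hz1), pk_eq hχ h k q (ball_subset_closedBall hz)]
  · intro j S hS hSV hSK
    refine le_trans (le_of_eq ?_) ((nrm_mono hSV _).trans (hs k hk q j))
    apply nrm_congr hS
    intro z hz
    have hzt : z ∈ (D.e j).target := D.sub j (subset_closure (hSV hz))
    have h1 := hσ0 k q (D.e j) ((D.e j).symm z) ⟨D.atl j, (D.e j).map_target hzt⟩ (hSK z hz)
    rw [(D.e j).right_inv hzt] at h1
    rw [h1, zero_sub, norm_neg]

theorem jetAt_of_key [T2Space X] {φ : Chart n X → Cm n → ℝ} (hφ : IsMetric L φ)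
    (hpos : ∀ e x, At e x → (cHess (φ e) (e x)).PosDef) (D : KeyData L φ) (x : X) :
    ∃ m, 1 ≤ m ∧ JetAt L m x := by
  obtain ⟨i, hx, hxV⟩ := D.cov x
  have hat : At (D.e i) x := ⟨D.atl i, hx⟩
  obtain ⟨h, a, A, R, N⟩ := exists_NF ((hφ.smooth (D.e i) x hat).of_le two_le_infty)
    (hpos _ x hat)
  obtain ⟨r, hr, hrR, hrV, -⟩ := exists_radius (D.isOpen i) (subset_closure.trans (D.sub i)) hx hxV
    isOpen_univ (mem_univ x) N.R_pos
  obtain ⟨K, s, hK, hs⟩ := exists_approx hφ D i N hr hrR hrV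
  have ha := N.a_pos
  obtain ⟨ρ, hρ, hρr, -, hjet⟩ := N.jet (δ := a * r ^ 2 / 4) (ρ₀ := r / 2) (by positivity)
    (by positivity)
  obtain ⟨m₁, hm₁⟩ := hjet K hK
  have hm0 : D.m₀ ≤ max D.m₀ m₁ := le_max_left _ _
  refine ⟨max D.m₀ m₁, D.one_le.trans hm0, s (max D.m₀ m₁), D.e i, hat, ?_⟩
  have hball : ball (D.e i x) ρ ⊆ ball (D.e i x) (r / 2) := ball_subset_ball hρr
  have hbt : ball (D.e i x) ρ ⊆ (D.e i).target := fun z hz =>
    D.sub i (subset_closure (hrV (ball_subset_closedBall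
      (ball_subset_ball (by linarith) (hball hz)))))
  exact hm₁ _ (le_max_right _ _) (fun q => (s (max D.m₀ m₁) q).coeff (D.e i))
    (fun q => PSec.differentiableOn _ (D.atl i) hbt)
    (fun q => (nrm_mono hball _).trans (hs _ hm0 q).1)

theorem sepAt_of_key [T2Space X] {φ : Chart n X → Cm n → ℝ} (hφ : IsMetric L φ)
    (hpos : ∀ e x, At e x → (cHess (φ e) (e x)).PosDef) (D : KeyData L φ) (x y : X) (hxy : x ≠ y) :
    ∃ m, 1 ≤ m ∧ SepAt L m x y := by
  obtain ⟨O, O', hO, hO', hxO, hyO', hdisj⟩ := t2_separation hxy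
  obtain ⟨i, hx, hxV⟩ := D.cov x
  obtain ⟨j, hy, hyV⟩ := D.cov y
  have hat : At (D.e i) x := ⟨D.atl i, hx⟩
  have hat' : At (D.e j) y := ⟨D.atl j, hy⟩
  obtain ⟨h, a, A, R, N⟩ := exists_NF ((hφ.smooth (D.e i) x hat).of_le two_le_infty)
    (hpos _ x hat)
  obtain ⟨h', a', A', R', N'⟩ := exists_NF
    ((hφ.smooth (D.e j) y hat').of_le two_le_infty) (hpos _ y hat')
  obtain ⟨r, hr, hrR, hrV, hrO⟩ := exists_radius (D.isOpen i) (subset_closure.trans (D.sub i)) hx
    hxV hO hxO N.R_pos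
  obtain ⟨r', hr', hrR', hrV', hrO'⟩ := exists_radius (D.isOpen j)
    (subset_closure.trans (D.sub j)) hy hyV hO' hyO' N'.R_pos
  obtain ⟨K, s, hK, hs⟩ := exists_approx hφ D i N hr hrR hrV
  obtain ⟨K', s', hK', hs'⟩ := exists_approx hφ D j N' hr' hrR' hrV'
  have ha := N.a_pos
  have ha' := N'.a_pos
  have hVi : D.V i ⊆ (D.e i).target := subset_closure.trans (D.sub i)
  have hVj : D.V j ⊆ (D.e j).target := subset_closure.trans (D.sub j)
  have hq : (0 : ℝ) < 1 / 4 := by norm_num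
  obtain ⟨ρ1, hρ1, hρr1, -, hv1⟩ := N.value (δ := a * r ^ 2 / 4) (ρ₀ := r / 2) (by positivity)
    (by positivity)
  obtain ⟨ρ2, hρ2, hρr2, -, hv2⟩ := N'.value (δ := a * r ^ 2 / 4) (ρ₀ := r') (by positivity) hr'
  obtain ⟨ρ3, hρ3, hρr3, -, hv3⟩ := N.value (δ := a' * r' ^ 2 / 4) (ρ₀ := r) (by positivity) hr
  obtain ⟨ρ4, hρ4, hρr4, -, hv4⟩ := N'.value (δ := a' * r' ^ 2 / 4) (ρ₀ := r' / 2) (by positivity)
    (by positivity)
  obtain ⟨k1, hk1⟩ := hv1 K (1 / 4) hK hq
  obtain ⟨k2, hk2⟩ := hv2 K (1 / 4) hK hq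
  obtain ⟨k3, hk3⟩ := hv3 K' (1 / 4) hK' hq
  obtain ⟨k4, hk4⟩ := hv4 K' (1 / 4) hK' hq
  obtain ⟨k, hk0, hkk1, hkk2, hkk3, hkk4⟩ : ∃ k, D.m₀ ≤ k ∧ k1 ≤ k ∧ k2 ≤ k ∧ k3 ≤ k ∧ k4 ≤ k :=
    ⟨D.m₀ + k1 + k2 + k3 + k4, by omega, by omega, by omega, by omega, by omega⟩
  have hb1 : ball (D.e i x) ρ1 ⊆ ball (D.e i x) (r / 2) := ball_subset_ball hρr1
  have hb1V : ball (D.e i x) ρ1 ⊆ D.V i := fun z hz =>
    hrV (ball_subset_closedBall (ball_subset_ball (by linarith) (hb1 hz)))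
  have hb3c : ball (D.e i x) ρ3 ⊆ closedBall (D.e i x) r :=
    (ball_subset_ball hρr3).trans ball_subset_closedBall
  have hb4 : ball (D.e j y) ρ4 ⊆ ball (D.e j y) (r' / 2) := ball_subset_ball hρr4
  have hb4V : ball (D.e j y) ρ4 ⊆ D.V j := fun z hz =>
    hrV' (ball_subset_closedBall (ball_subset_ball (by linarith) (hb4 hz)))
  have hb2c : ball (D.e j y) ρ2 ⊆ closedBall (D.e j y) r' :=
    (ball_subset_ball hρr2).trans ball_subset_closedBall
  have hfar : ∀ z ∈ ball (D.e j y) ρ2,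
      (D.e j).symm z ∉ (D.e i).symm '' closedBall (D.e i x) r := by
    rintro z hz ⟨w, hw, hwz⟩
    exact disjoint_left.1 hdisj (hrO w hw) (hwz ▸ hrO' z (hb2c hz))
  have hfar' : ∀ z ∈ ball (D.e i x) ρ3,
      (D.e i).symm z ∉ (D.e j).symm '' closedBall (D.e j y) r' := by
    rintro z hz ⟨w, hw, hwz⟩
    exact disjoint_left.1 hdisj (hwz ▸ hrO z (hb3c hz)) (hrO' w hw)
  have e1 := hk1 k hkk1 1 ((s k 0).coeff (D.e i))
    (PSec.differentiableOn _ (D.atl i) (hb1V.trans hVi)) (by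
      have := (nrm_mono hb1 _).trans (hs k hk0 0).1
      simpa only [qf_zero] using this)
  have e2 := hk2 k hkk2 0 ((s k 0).coeff (D.e j))
    (PSec.differentiableOn _ (D.atl j) ((hb2c.trans hrV').trans hVj)) (by
      have := (hs k hk0 0).2 j (ball (D.e j y) ρ2) measurableSet_ball (hb2c.trans hrV') hfar
      refine le_trans (le_of_eq (nrm_congr measurableSet_ball fun z _ => ?_)) this
      rw [zero_mul, zero_sub, norm_neg])
  have e3 := hk3 k hkk3 0 ((s' k 0).coeff (D.e i))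
    (PSec.differentiableOn _ (D.atl i) ((hb3c.trans hrV).trans hVi)) (by
      have := (hs' k hk0 0).2 i (ball (D.e i x) ρ3) measurableSet_ball (hb3c.trans hrV) hfar'
      refine le_trans (le_of_eq (nrm_congr measurableSet_ball fun z _ => ?_)) this
      rw [zero_mul, zero_sub, norm_neg])
  have e4 := hk4 k hkk4 1 ((s' k 0).coeff (D.e j))
    (PSec.differentiableOn _ (D.atl j) (hb4V.trans hVj)) (by
      have := (nrm_mono hb4 _).trans (hs' k hk0 0).1
      simpa only [qf_zero] using this)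
  exact ⟨k, D.one_le.trans hk0, s k 0, s' k 0, D.e i, D.e j, hat, hat',
    det_ne_zero_of_close e1 e2 e3 e4⟩

end

/-- **Peak sections.** -/
theorem peak (n : ℕ) (X : Type) [TopologicalSpace X] [T2Space X]
    [CompactSpace X] [ChartedSpace (Cm n) X] [IsManifold 𝓘(ℂ, Cm n) ω X] (L : ALB n X)
    (φ : Chart n X → Cm n → ℝ) (hφ : IsMetric L φ)
    (hpos : ∀ e x, At e x → (cHess (φ e) (e x)).PosDef) (hkey : Key L φ) :
    (∀ x : X, ∃ m, 1 ≤ m ∧ JetAt L m x) ∧ (∀ x y : X, x ≠ y → ∃ m, 1 ≤ m ∧ SepAt L m x y) := by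
  obtain ⟨D⟩ := Key.data hkey
  exact ⟨fun x => jetAt_of_key hφ hpos D x, fun x y hxy => sepAt_of_key hφ hpos D x y hxy⟩

end Vale.Agent.P299.H800.KOD
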