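import Vale.Agent.P299.H800.KOD.Soft1

/-! Stage 4 of P272, soft part 2: one-jets of pluricanonical forms. -/

open scoped Manifold ContDiff Topology
open Set Vale.Agent.P272.K Vale.Agent.P272.KOD

noncomputable section

namespace Vale.Agent.P299.H800.KOD

variable {n m : ℕ} {X : Type*} [TopologicalSpace X] [ChartedSpace (Cm n) X] {L : ALB n X}

/-- The ratios of the forms `s i` by the form `s0`, read in the chart `e`. -/
def ratio {ι : Type*} (s0 : PSec L m) (s : ι → PSec L m) (e : Chart n X) (w : Cm n) :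
    ι → ℂ :=
  fun i => (s i).coeff e w / s0.coeff e w

/-- The form `s0` does not vanish at `x` and the derivative at `x` of the ratios `s i / s0`
is injective (in the chart `e`). -/
def Jet {ι : Type*} [Fintype ι] (s0 : PSec L m) (s : ι → PSec L m) (e : Chart n X)
    (x : X) : Prop :=
  s0.coeff e (e x) ≠ 0 ∧ Function.Injective (fderiv ℂ (ratio s0 s e) (e x))

/-- There are `m`-canonical forms `s0`, `s i` (`i < n`) such that `s0` does not vanish at `x`
and the functions `s i / s0` are local coordinates at `x`. -/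
def JetP (L : ALB n X) (m : ℕ) (x : X) : Prop :=
  ∃ (s0 : PSec L m) (s : Fin n → PSec L m), Jet s0 s (cht n x) x

variable {ι : Type*} [Fintype ι] {s0 : PSec L m} {s : ι → PSec L m}
  {e e' : Chart n X} {x : X}

lemma ratio_analyticAt (h : At e x) (h0 : s0.coeff e (e x) ≠ 0) :
    AnalyticAt ℂ (ratio s0 s e) (e x) := by
  refine AnalyticAt.pi fun i => ?_
  exact ((s i).holo e x h).div (s0.holo e x h) h0

omit [Fintype ι] in
lemma ratio_change (h : At e x) (h' : At e' x) (h0 : s0.coeff e (e x) ≠ 0) :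
    ratio s0 s e =ᶠ[𝓝 (e x)] fun w => ratio s0 s e' (trans e e' w) := by
  have h1 : ∀ᶠ w in 𝓝 (e x), w ∈ e.target := e.open_target.mem_nhds (e.map_source h.2)
  have h2 : ∀ᶠ w in 𝓝 (e x), e.symm w ∈ e'.source := by
    have := (e.continuousAt_symm (e.map_source h.2)).eventually
      (e'.open_source.mem_nhds (by rw [e.left_inv h.2]; exact h'.2))
    exact this
  have h3 := (s0.holo e x h).continuousAt.eventually_ne h0
  filter_upwards [h1, h2, h3] with w hw hw' h4
  funext i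
  have hy : At e (e.symm w) := ⟨h.1, e.map_target hw⟩
  have hy' : At e' (e.symm w) := ⟨h'.1, hw'⟩
  have hyw : e (e.symm w) = w := e.right_inv hw
  have c1 := (s i).change e e' _ hy hy'
  have c2 := s0.change e e' _ hy hy'
  rw [hyw] at c1 c2
  change (s i).coeff e w / s0.coeff e w =
    (s i).coeff e' (e' (e.symm w)) / s0.coeff e' (e' (e.symm w))
  have hc : (L.tr e e' (e.symm w)) ^ m ≠ 0 := by
    intro h5
    rw [h5, mul_zero] at c2
    exact h4 c2
  rw [c1, c2, mul_div_mul_right _ _ hc]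

lemma Jet.change [IsManifold 𝓘(ℂ, Cm n) ω X] (h : At e x) (h' : At e' x) (hj : Jet s0 s e x) :
    Jet s0 s e' x := by
  have h0' : s0.coeff e' (e' x) ≠ 0 :=
    (val_ne_iff s0 h').mp ((val_ne_iff s0 h).mpr hj.1)
  refine ⟨h0', ?_⟩
  have h1 := (ratio_change (s := s) h' h h0').fderiv_eq (𝕜 := ℂ)
  have h2 := fderiv_fun_comp (𝕜 := ℂ) (f := trans e' e) (g := ratio s0 s e) (e' x)
    (by rw [trans_apply h']; exact (ratio_analyticAt h hj.1).differentiableAt)
    ((trans_contDiffAt h' h).differentiableAt (by simp))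
  rw [h1, h2, trans_apply h']
  exact hj.2.comp (trans_fderiv_injective h' h)

lemma jetP_iff [IsManifold 𝓘(ℂ, Cm n) ω X] (h : At e x) :
    JetP L m x ↔ ∃ (s0 : PSec L m) (s : Fin n → PSec L m), Jet s0 s e x := by
  constructor
  · rintro ⟨s0, s, hj⟩
    exact ⟨s0, s, hj.change (at_cht x) h⟩
  · rintro ⟨s0, s, hj⟩
    exact ⟨s0, s, hj.change h (at_cht x)⟩

/-- An injective linear map between spaces of the same dimension is an equivalence. -/
lemma exists_equiv {L : Cm n →L[ℂ] (Fin n → ℂ)} (hL : Function.Injective L) :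
    ∃ L' : Cm n ≃L[ℂ] (Fin n → ℂ), (L' : Cm n →L[ℂ] (Fin n → ℂ)) = L := by
  have hd : Module.finrank ℂ (Cm n) = Module.finrank ℂ (Fin n → ℂ) := by simp
  refine ⟨(LinearEquiv.ofInjectiveOfFinrankEq L.toLinearMap hL hd).toContinuousLinearEquiv, ?_⟩
  ext v
  rfl

lemma jet_nhds {s : Fin n → PSec L m} (h : At e x) (hj : Jet s0 s e x) :
    ∀ᶠ y in 𝓝 x, At e y ∧ Jet s0 s e y := by
  have ha := ratio_analyticAt (s := s) h hj.1
  have h1 : ContinuousAt (fderiv ℂ (ratio s0 s e)) (e x) := ha.fderiv.continuousAt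
  obtain ⟨L, hL⟩ := exists_equiv hj.2
  have h2 : ∀ᶠ w in 𝓝 (e x), fderiv ℂ (ratio s0 s e) w ∈
      range ((↑) : (Cm n ≃L[ℂ] (Fin n → ℂ)) → Cm n →L[ℂ] (Fin n → ℂ)) :=
    h1.eventually (ContinuousLinearEquiv.isOpen.mem_nhds ⟨L, hL⟩)
  have h3 := (s0.holo e x h).continuousAt.eventually_ne hj.1
  have h4 := (map_contAt h).eventually (h2.and h3)
  filter_upwards [h4, at_nhds h] with y hy hey
  refine ⟨hey, hy.2, ?_⟩
  obtain ⟨L', hL'⟩ := hy.1
  rw [← hL']
  exact L'.injective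

lemma jet_sep {s : Fin n → PSec L m} (h : At e x) (hj : Jet s0 s e x) :
    ∀ᶠ p in 𝓝 (x, x), p.1 ≠ p.2 →
      ∃ i, (s i).val p.1 * s0.val p.2 - (s i).val p.2 * s0.val p.1 ≠ 0 := by
  have ha := (ratio_analyticAt (s := s) h hj.1).hasStrictFDerivAt
  obtain ⟨L, hL⟩ := exists_equiv hj.2
  rw [← hL] at ha
  set Φ := ha.toOpenPartialHomeomorph (ratio s0 s e) with hΦ
  have h1 : ∀ᶠ w in 𝓝 (e x), w ∈ Φ.source :=
    Φ.open_source.mem_nhds ha.mem_toOpenPartialHomeomorph_source
  have h3 := (s0.holo e x h).continuousAt.eventually_ne hj.1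
  have h4 := (map_contAt h).eventually (h1.and h3)
  have h5 := h4.and (at_nhds h)
  have h6 : ∀ᶠ p : X × X in 𝓝 (x, x), (e p.1 ∈ Φ.source ∧ s0.coeff e (e p.1) ≠ 0) ∧
      At e p.1 :=
    (continuous_fst.tendsto ((x, x) : X × X)).eventually h5
  have h7 : ∀ᶠ p : X × X in 𝓝 (x, x), (e p.2 ∈ Φ.source ∧ s0.coeff e (e p.2) ≠ 0) ∧
      At e p.2 :=
    (continuous_snd.tendsto ((x, x) : X × X)).eventually h5
  filter_upwards [h6, h7] with p hp hq hne
  obtain ⟨⟨hp1, hp2⟩, hp3⟩ := hp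
  obtain ⟨⟨hq1, hq2⟩, hq3⟩ := hq
  have hmap : e p.1 ≠ e p.2 := by
    intro heq
    exact hne (e.injOn hp3.2 hq3.2 heq)
  have hr : ratio s0 s e (e p.1) ≠ ratio s0 s e (e p.2) := by
    intro heq
    exact hmap (Φ.injOn hp1 hq1 heq)
  obtain ⟨i, hi⟩ := Function.ne_iff.mp hr
  refine ⟨i, ?_⟩
  rw [← minor_ne_iff (s i) s0 hp3 hq3]
  intro h0
  apply hi
  change (s i).coeff e (e p.1) / s0.coeff e (e p.1) =
    (s i).coeff e (e p.2) / s0.coeff e (e p.2)
  rw [div_eq_div_iff hp2 hq2]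
  unfold minor at h0
  linear_combination h0

lemma Jet.pow {s : Fin n → PSec L m} (h : At e x) (hj : Jet s0 s e x) (k : ℕ) :
    Jet (pfPow s0 (k + 1)) (fun i => pfCast (by ring : m * k + m = m * (k + 1))
      (pfMul (pfPow s0 k) (s i))) e x := by
  refine ⟨pow_ne_zero _ hj.1, ?_⟩
  have h3 := (s0.holo e x h).continuousAt.eventually_ne hj.1
  have h4 : ratio (pfPow s0 (k + 1)) (fun i => pfCast (by ring : m * k + m = m * (k + 1))
      (pfMul (pfPow s0 k) (s i))) e =ᶠ[𝓝 (e x)] ratio s0 s e := by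
    filter_upwards [h3] with w hw
    funext i
    change s0.coeff e w ^ k * (s i).coeff e w / s0.coeff e w ^ (k + 1) =
      (s i).coeff e w / s0.coeff e w
    have := pow_ne_zero k hw
    field_simp
    ring
  rw [h4.fderiv_eq]
  exact hj.2

lemma JetP.pow (hj : JetP L m x) {k : ℕ} (hk : 1 ≤ k) : JetP L (m * k) x := by
  obtain ⟨s0, s, hs⟩ := hj
  obtain ⟨j, rfl⟩ : ∃ j, k = j + 1 := ⟨k - 1, by omega⟩
  exact ⟨_, _, hs.pow (at_cht x) j⟩

/-- If every one-jet at `x` is attained by an `m`-canonical form then `JetP` holds. -/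
lemma jetP_of_surj [IsManifold 𝓘(ℂ, Cm n) ω X] (h : At e x)
    (hs : ∀ (a : ℂ) (l : Cm n →L[ℂ] ℂ), ∃ s : PSec L m, s.coeff e (e x) = a ∧
      fderiv ℂ (s.coeff e) (e x) = l) : JetP L m x := by
  obtain ⟨s0, h0, h0'⟩ := hs 1 0
  choose s hs1 hs2 using fun i : Fin n => hs 0 (ContinuousLinearMap.proj i : Cm n →L[ℂ] ℂ)
  rw [jetP_iff h]
  refine ⟨s0, s, ?_, ?_⟩
  · rw [h0]
    exact one_ne_zero
  · have d0 : HasFDerivAt (s0.coeff e) (0 : Cm n →L[ℂ] ℂ) (e x) := by
      rw [← h0']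
      exact (s0.holo e x h).differentiableAt.hasFDerivAt
    have d1 : ∀ i, HasFDerivAt ((s i).coeff e) (ContinuousLinearMap.proj i : Cm n →L[ℂ] ℂ)
        (e x) := by
      intro i
      rw [← hs2 i]
      exact ((s i).holo e x h).differentiableAt.hasFDerivAt
    have hne : s0.coeff e (e x) ≠ 0 := by rw [h0]; exact one_ne_zero
    have d2 : HasFDerivAt (ratio s0 s e)
        (ContinuousLinearMap.pi fun i => (ContinuousLinearMap.proj i : Cm n →L[ℂ] ℂ)) (e x) := by
      rw [hasFDerivAt_pi]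
      intro i
      have h1 := (hasDerivAt_inv hne).comp_hasFDerivAt (e x) d0
      have h2 := (d1 i).mul h1
      have h3 : (fun w => ratio s0 s e w i) = (s i).coeff e * (Inv.inv ∘ s0.coeff e) := by
        funext w
        exact div_eq_mul_inv _ _
      rw [h3]
      rw [hs1 i, Function.comp_apply, h0] at h2
      refine h2.congr_fderiv ?_
      ext v
      simp
    rw [d2.fderiv]
    intro v w hvw
    ext i
    exact congrFun hvw i

end Vale.Agent.P299.H800.KOD
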